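import Mathlib
import Vale.Agent.Lib.P090.Defs

/-!
# P090, pool job A (helper99): the bounded approximation property passes to a retract

* `BAP.mono`: the `a`-bounded approximation property implies the `b`-bounded one for `a ≤ b`.
* `BAP.of_retract`: if `r ∘ i = id` for bounded linear maps `i : Y → X`, `r : X → Y` with
  `‖r‖ * ‖i‖ ≤ c`, and `X` has the `a`-bounded approximation property, then `Y` has the
  `c * a`-bounded approximation property.
-/

namespace Vale.Agent.Lib.P090.H99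

open Vale.Agent.Lib.P090

open scoped NNReal ENNReal

universe u

theorem BAP.mono {X : Type*} [NormedAddCommGroup X] [NormedSpace ℝ X] {a b : ℝ}
    (h : BAP a X) (hab : a ≤ b) : BAP b X := by
  intro C hC ε hε
  obtain ⟨T, hT1, hT2, hT3⟩ := h C hC ε hε
  exact ⟨T, hT1, hT2.trans hab, hT3⟩

theorem BAP.of_retract {X Y : Type*} [NormedAddCommGroup X] [NormedSpace ℝ X]
    [NormedAddCommGroup Y] [NormedSpace ℝ Y] (i : Y →L[ℝ] X) (r : X →L[ℝ] Y)
    (hri : ∀ y, r (i y) = y) (c a : ℝ) (hc : ‖r‖ * ‖i‖ ≤ c) (h : BAP a X) :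
    BAP (c * a) Y := by
  intro C hC ε hε
  have hr1 : 0 < ‖r‖ + 1 := add_pos_of_nonneg_of_pos (norm_nonneg r) one_pos
  obtain ⟨T, hT1, hT2, hT3⟩ :=
    h (i '' C) (hC.image i.continuous) (ε / (‖r‖ + 1)) (div_pos hε hr1)
  refine ⟨r.comp (T.comp i), ?_, ?_, ?_⟩
  · -- finite rank
    have := hT1
    have hle : LinearMap.range ((r.comp (T.comp i) : Y →L[ℝ] Y) : Y →ₗ[ℝ] Y)
        ≤ Submodule.map (r : X →ₗ[ℝ] Y) (LinearMap.range (T : X →ₗ[ℝ] X)) := by
      rintro _ ⟨y, rfl⟩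
      exact ⟨T (i y), ⟨i y, rfl⟩, rfl⟩
    exact Submodule.finiteDimensional_of_le hle
  · -- norm
    have h0 : 0 ≤ ‖r‖ * ‖i‖ := mul_nonneg (norm_nonneg r) (norm_nonneg i)
    calc ‖r.comp (T.comp i)‖ ≤ ‖r‖ * ‖T.comp i‖ := ContinuousLinearMap.opNorm_comp_le _ _
      _ ≤ ‖r‖ * (‖T‖ * ‖i‖) :=
          mul_le_mul_of_nonneg_left (ContinuousLinearMap.opNorm_comp_le _ _) (norm_nonneg r)
      _ = ‖r‖ * ‖i‖ * ‖T‖ := by ring
      _ ≤ c * a := mul_le_mul hc hT2 (norm_nonneg T) (h0.trans hc)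
  · -- error on the compact set
    intro u hu
    have h1 : ‖T (i u) - i u‖ < ε / (‖r‖ + 1) := hT3 (i u) ⟨u, hu, rfl⟩
    have h2 : (r.comp (T.comp i)) u - u = r (T (i u) - i u) := by
      rw [map_sub, hri]
      rfl
    rw [h2]
    calc ‖r (T (i u) - i u)‖ ≤ ‖r‖ * ‖T (i u) - i u‖ := r.le_opNorm _
      _ ≤ ‖r‖ * (ε / (‖r‖ + 1)) := mul_le_mul_of_nonneg_left h1.le (norm_nonneg r)
      _ < ε := by
          rw [← mul_div_assoc, div_lt_iff₀ hr1]
          nlinarith [norm_nonneg r]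

end Vale.Agent.Lib.P090.H99
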